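import Vale.Agent.P230.BS.Num
import Vale.Agent.P230.G.Glue
import Vale.Agent.P230.G.Tune
import Vale.Agent.P230.H852.Final

/-!
# P230, block step: the numerical conditions of the block lemma
-/

set_option autoImplicit false

namespace Vale.Agent.P230.BS

open Real Vale.Agent.P230.G Vale.Agent.P230.H852

theorem sqrt_2pie_le : Real.sqrt (2 * π * Real.exp 1) ≤ 4.133 := by
  apply Real.sqrt_le_iff.mpr
  refine ⟨by norm_num, ?_⟩
  have h1 := Real.pi_lt_d6
  have h2 := Real.exp_one_lt_d9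
  have h3 := Real.pi_gt_three
  have h4 := Real.exp_pos (1 : ℝ)
  calc 2 * π * Real.exp 1 ≤ 2 * 3.141593 * 2.7182818286 := by gcongr
    _ ≤ 4.133 ^ 2 := by norm_num

theorem sqrt_2pie_pos : 0 < Real.sqrt (2 * π * Real.exp 1) := by
  apply Real.sqrt_pos.mpr
  have := Real.pi_pos
  positivity

theorem small_base : 0.205 * Real.sqrt (2 * π * Real.exp 1) ≤ Real.exp (-0.162) := by
  have h1 : (1 - 0.0162 : ℝ) ≤ Real.exp (-0.0162) := by
    have := Real.add_one_le_exp (-0.0162 : ℝ)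
    linarith
  have h2 : (1 - 0.0162 : ℝ) ^ 10 ≤ Real.exp (-0.162) := by
    calc (1 - 0.0162 : ℝ) ^ 10 ≤ (Real.exp (-0.0162)) ^ 10 :=
          pow_le_pow_left₀ (by norm_num) h1 10
      _ = Real.exp (-0.162) := by rw [← Real.exp_nat_mul]; norm_num
  calc 0.205 * Real.sqrt (2 * π * Real.exp 1) ≤ 0.205 * 4.133 :=
        mul_le_mul_of_nonneg_left sqrt_2pie_le (by norm_num)
    _ ≤ (1 - 0.0162 : ℝ) ^ 10 := by norm_num
    _ ≤ _ := h2

theorem blockNum {R : ℕ} {y : ℝ} (hb : Big R y) {P s r b' : ℕ} (hP1 : 1 ≤ P)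
    (hP : (P : ℝ) ≤ 2 * (R : ℝ) ^ 10) (hsr : s + r = R) (hb' : (b' : ℝ) ≤ R / 1000)
    {h δ ε : ℝ} (hδ : 0 < δ) (hh : h ≤ R * Real.log (Real.sqrt (2 * π * Real.exp 1) / δ))
    (hr1 : Real.exp (h + 3 * y ^ 53) ≤ (P : ℝ) ^ r)
    (hr2 : (P : ℝ) ^ r ≤ P * Real.exp (h + 3 * y ^ 53))
    (hε1 : (y ^ 5)⁻¹ ≤ ε) (hε2 : ε ≤ 1) :
    BlockNum P s r b' ⌈6 * y ^ 53 / Real.log 2⌉₊ ⌊y ^ 53 / 2⌋₊ ⌊y ^ 53 / 4⌋₊ (0.205 * δ) h
      (y ^ 53) ε (Real.exp (-2 * y ^ 53)) (Real.exp (-y ^ 53)) := by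
  have hy0 := hb.y_pos
  have hR0 := hb.R_pos
  have hR1 : (1 : ℝ) ≤ R := by rw [hb.hR]; exact one_le_pw hb.hy 100
  have hPr : (1 : ℝ) ≤ P := by exact_mod_cast hP1
  have hP0 : (0 : ℝ) < P := by linarith
  have hε0 : 0 < ε := lt_of_lt_of_le (by positivity) hε1
  have hX : (0 : ℝ) < (P : ℝ) ^ r := by positivity
  refine ⟨hε0, hε2, Real.exp_pos _, hb.hrho hε1, ?_, ?_, ?_⟩
  · -- hη
    have e0 : (P : ℝ) ^ r * Real.exp (-h + y ^ 53) *
        (1 + 4 * Real.exp (h + y ^ 53) / (P : ℝ) ^ r) =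
        (P : ℝ) ^ r * Real.exp (-h + y ^ 53) + 4 * Real.exp (2 * y ^ 53) := by
      have : Real.exp (2 * y ^ 53) = Real.exp (-h + y ^ 53) * Real.exp (h + y ^ 53) := by
        rw [← Real.exp_add]; congr 1; ring
      rw [this]
      field_simp
    have e1 : (P : ℝ) ^ r * Real.exp (-h + y ^ 53) ≤ P * Real.exp (4 * y ^ 53) := by
      calc (P : ℝ) ^ r * Real.exp (-h + y ^ 53)
          ≤ (P * Real.exp (h + 3 * y ^ 53)) * Real.exp (-h + y ^ 53) :=
            mul_le_mul_of_nonneg_right hr2 (Real.exp_pos _).le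
        _ = P * Real.exp (4 * y ^ 53) := by
            rw [mul_assoc, ← Real.exp_add]; congr 2; ring
    have e2 : Real.exp (2 * y ^ 53) ≤ Real.exp (4 * y ^ 53) := by
      apply Real.exp_le_exp.2
      have : 0 < y ^ 53 := by positivity
      linarith
    have e3 := hb.two_pow_d1
    have e4 : ((P : ℝ) ^ r * Real.exp (-h + y ^ 53) *
        (1 + 4 * Real.exp (h + y ^ 53) / (P : ℝ) ^ r)) / 2 ^ ⌈6 * y ^ 53 / Real.log 2⌉₊ ≤
        (P + 4) * Real.exp (-2 * y ^ 53) := by
      rw [div_le_iff₀ (by positivity), e0]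
      calc (P : ℝ) ^ r * Real.exp (-h + y ^ 53) + 4 * Real.exp (2 * y ^ 53)
          ≤ P * Real.exp (4 * y ^ 53) + 4 * Real.exp (4 * y ^ 53) := by linarith
        _ = (P + 4) * Real.exp (-2 * y ^ 53) * Real.exp (6 * y ^ 53) := by
            rw [mul_assoc, ← Real.exp_add]
            rw [show -2 * y ^ 53 + 6 * y ^ 53 = 4 * y ^ 53 by ring]
            ring
        _ ≤ _ := mul_le_mul_of_nonneg_left e3 (by positivity)
    have e5 : Real.exp (h + y ^ 53) / (P : ℝ) ^ r ≤ Real.exp (-2 * y ^ 53) := by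
      rw [div_le_iff₀ hX]
      calc Real.exp (h + y ^ 53) = Real.exp (-2 * y ^ 53) * Real.exp (h + 3 * y ^ 53) := by
            rw [← Real.exp_add]; congr 1; ring
        _ ≤ _ := mul_le_mul_of_nonneg_left hr1 (Real.exp_pos _).le
    have e6 : (P : ℝ) + 9 ≤ 11 * (R : ℝ) ^ 10 := by
      have : (1 : ℝ) ≤ (R : ℝ) ^ 10 := one_le_pow₀ hR1
      linarith
    have e7 : 1 / ε ^ 2 ≤ R := by
      have h1 : 1 / ε ^ 2 ≤ (y ^ 5) ^ 2 := by
        rw [div_le_iff₀ (by positivity)]
        have h2 : 1 ≤ ε * y ^ 5 := by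
          calc (1 : ℝ) = (y ^ 5)⁻¹ * y ^ 5 := by field_simp
            _ ≤ ε * y ^ 5 := mul_le_mul_of_nonneg_right hε1 (by positivity)
        nlinarith
      have h3 : (y ^ 5) ^ 2 ≤ y ^ 100 := by
        rw [← pow_mul]
        exact pow_le_pow_right₀ (by linarith [hb.hy]) (by norm_num)
      rw [hb.hR]
      linarith
    have e8 : 1 / ε ≤ 1 / ε ^ 2 := by
      apply one_div_le_one_div_of_le (by positivity)
      nlinarith
    have eE : 0 < Real.exp (-2 * y ^ 53) := Real.exp_pos _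
    calc ((P : ℝ) ^ r * Real.exp (-h + y ^ 53) *
        (1 + 4 * Real.exp (h + y ^ 53) / (P : ℝ) ^ r) / 2 ^ ⌈6 * y ^ 53 / Real.log 2⌉₊ +
        Real.exp (-2 * y ^ 53)) / ε ^ 2 + 4 * Real.exp (h + y ^ 53) / (P : ℝ) ^ r / ε
        ≤ ((P + 4) * Real.exp (-2 * y ^ 53) + Real.exp (-2 * y ^ 53)) / ε ^ 2 +
          4 * Real.exp (-2 * y ^ 53) / ε := by
          gcongr
          rw [mul_div_assoc]
          linarith
      _ = (P + 5) * Real.exp (-2 * y ^ 53) * (1 / ε ^ 2) +
          4 * Real.exp (-2 * y ^ 53) * (1 / ε) := by ring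
      _ ≤ (P + 5) * Real.exp (-2 * y ^ 53) * (1 / ε ^ 2) +
          4 * Real.exp (-2 * y ^ 53) * (1 / ε ^ 2) := by gcongr
      _ = (P + 9) * Real.exp (-2 * y ^ 53) * (1 / ε ^ 2) := by ring
      _ ≤ (11 * (R : ℝ) ^ 10) * Real.exp (-2 * y ^ 53) * R := by gcongr
      _ = (11 * (R : ℝ) ^ 11) * Real.exp (-2 * y ^ 53) := by ring
      _ ≤ Real.exp (y ^ 53) * Real.exp (-2 * y ^ 53) := by gcongr; exact hb.exp_lam
      _ = Real.exp (-y ^ 53) := by rw [← Real.exp_add]; congr 1; ring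
  · -- h1
    rw [hsr]
    have e1 : Real.exp h * (0.205 * δ) ^ R ≤ Real.exp (-(0.162 * R)) := by
      have h1 : Real.exp h ≤ (Real.sqrt (2 * π * Real.exp 1) / δ) ^ R := by
        calc Real.exp h ≤ Real.exp (R * Real.log (Real.sqrt (2 * π * Real.exp 1) / δ)) :=
              Real.exp_le_exp.2 hh
          _ = _ := by
              rw [← Real.log_pow, Real.exp_log]
              have := sqrt_2pie_pos
              positivity
      calc Real.exp h * (0.205 * δ) ^ R
          ≤ (Real.sqrt (2 * π * Real.exp 1) / δ) ^ R * (0.205 * δ) ^ R :=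
            mul_le_mul_of_nonneg_right h1 (by positivity)
        _ = (0.205 * Real.sqrt (2 * π * Real.exp 1)) ^ R := by
            rw [← mul_pow]; congr 1; field_simp
        _ ≤ (Real.exp (-0.162)) ^ R :=
            pow_le_pow_left₀ (by have := sqrt_2pie_pos; positivity) small_base R
        _ = Real.exp (-(0.162 * R)) := by rw [← Real.exp_nat_mul]; congr 1; ring
    have e2 : (3 : ℝ) ^ b' ≤ Real.exp (0.002 * R) := by
      have h1 : Real.log 3 ≤ 2 := by
        have := Real.log_le_sub_one_of_pos (by norm_num : (0 : ℝ) < 3)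
        linarith
      calc (3 : ℝ) ^ b' = Real.exp (b' * Real.log 3) := by
            rw [← Real.log_pow, Real.exp_log (by positivity)]
        _ ≤ Real.exp (0.002 * R) := by
            apply Real.exp_le_exp.2
            have : (b' : ℝ) * Real.log 3 ≤ R / 1000 * 2 :=
              mul_le_mul hb' h1 (Real.log_nonneg (by norm_num)) (by positivity)
            linarith
    have e3 : (16 : ℝ) * (R : ℝ) ^ 10 ≤ Real.exp (3 + 10 * y) := by
      rw [← Real.exp_log (by positivity : (0 : ℝ) < 16 * (R : ℝ) ^ 10)]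
      apply Real.exp_le_exp.2
      rw [Real.log_mul (by norm_num) (by positivity), Real.log_pow]
      have h1 : Real.log 16 = 4 * Real.log 2 := by
        rw [show (16 : ℝ) = 2 ^ 4 by norm_num, Real.log_pow]; norm_num
      have h2 := Real.log_two_lt_d9
      have h3 := hb.hlog
      push_cast
      linarith
    have e4 := hb.n2
    calc 8 * 3 ^ b' * (P : ℝ) ^ r * (0.205 * δ) ^ R
        ≤ 8 * 3 ^ b' * (P * Real.exp (h + 3 * y ^ 53)) * (0.205 * δ) ^ R := by gcongr
      _ = 8 * 3 ^ b' * P * Real.exp (3 * y ^ 53) * (Real.exp h * (0.205 * δ) ^ R) := by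
          rw [Real.exp_add]; ring
      _ ≤ 8 * Real.exp (0.002 * R) * (2 * (R : ℝ) ^ 10) * Real.exp (3 * y ^ 53) *
          Real.exp (-(0.162 * R)) := by gcongr
      _ = (16 * (R : ℝ) ^ 10) * Real.exp (0.002 * R + 3 * y ^ 53 - 0.162 * R) := by
          rw [Real.exp_sub, Real.exp_add, Real.exp_neg]; field_simp; ring
      _ ≤ Real.exp (3 + 10 * y) * Real.exp (0.002 * R + 3 * y ^ 53 - 0.162 * R) := by gcongr
      _ = Real.exp (3 + 10 * y + (0.002 * R + 3 * y ^ 53 - 0.162 * R)) := by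
          rw [← Real.exp_add]
      _ < Real.exp (-4 * y ^ 53) := by
          apply Real.exp_lt_exp.2
          linarith
      _ = (Real.exp (-2 * y ^ 53)) ^ 2 := by
          rw [← Real.exp_nat_mul]; congr 1; push_cast; ring
  · -- h2
    rw [hsr]
    have e1 : (4 : ℝ) ^ b' ≤ Real.exp (0.003 * R) := by
      have h1 : Real.log 4 ≤ 3 := by
        have := Real.log_le_sub_one_of_pos (by norm_num : (0 : ℝ) < 4)
        linarith
      calc (4 : ℝ) ^ b' = Real.exp (b' * Real.log 4) := by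
            rw [← Real.log_pow, Real.exp_log (by positivity)]
        _ ≤ Real.exp (0.003 * R) := by
            apply Real.exp_le_exp.2
            have : (b' : ℝ) * Real.log 4 ≤ R / 1000 * 3 :=
              mul_le_mul hb' h1 (Real.log_nonneg (by norm_num)) (by positivity)
            linarith
    have e2 : (P : ℝ) ^ R ≤ Real.exp (R * (1 + 10 * y)) := by
      have h1 : Real.log P ≤ 1 + 10 * y := by
        have h2 := Real.log_le_log hP0 hP
        rw [Real.log_mul (by norm_num) (by positivity), Real.log_pow] at h2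
        have h3 := Real.log_two_lt_d9
        have h4 := hb.hlog
        push_cast at h2
        linarith
      calc (P : ℝ) ^ R = Real.exp (R * Real.log P) := by
            rw [← Real.log_pow, Real.exp_log (by positivity)]
        _ ≤ _ := Real.exp_le_exp.2 (mul_le_mul_of_nonneg_left h1 hR0.le)
    have e3 := hb.d2_rho
    have e4 := hb.n4
    have e5 : (2 : ℝ) ≤ Real.exp 1 := by
      have := Real.add_one_le_exp (1 : ℝ)
      linarith
    calc 2 * 4 ^ b' * (P : ℝ) ^ R * (2 ^ ⌊y ^ 53 / 2⌋₊ * Real.exp (-y ^ 53)) ^ ⌊y ^ 53 / 4⌋₊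
        ≤ Real.exp 1 * Real.exp (0.003 * R) * Real.exp (R * (1 + 10 * y)) *
          Real.exp (-(0.1625 * (y ^ 53) ^ 2) + 0.65 * y ^ 53) := by gcongr
      _ = Real.exp (1 + 0.003 * R + R * (1 + 10 * y) +
          (-(0.1625 * (y ^ 53) ^ 2) + 0.65 * y ^ 53)) := by
          rw [← Real.exp_add, ← Real.exp_add, ← Real.exp_add]
      _ < Real.exp 0 := by
          apply Real.exp_lt_exp.2
          linarith
      _ = 1 := Real.exp_zero

end Vale.Agent.P230.BS
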