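import Vale.Agent.P230.BS.BlockNum

/-!
# P230, block step: `StmtBSint` and `StmtBSlast`
-/

set_option autoImplicit false

namespace Vale.Agent.P230.BS

open Real Filter Vale.Agent.P230.G Vale.Agent.P230.H852

/-- the entropy deficit as a function of `A` and `P` -/
noncomputable def Hf (A : ℝ) (P : ℕ) : ℝ :=
  if h : P = 0 then 0 else haveI : NeZero P := ⟨h⟩; HH A P

theorem Hf_eq (A : ℝ) (P : ℕ) [hP : NeZero P] : Hf A P = HH A P := by
  unfold Hf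
  rw [dif_neg hP.out]

theorem hBounds (hG2 : S_G2F) : HBounds Hf := by
  obtain ⟨c, C, A0, hc, hC, hA0, hF⟩ := hG2
  refine ⟨max A0 1, c, C, le_max_right _ _, hc, hC, fun A hA P hP => ?_⟩
  have hP0 : P ≠ 0 := by
    rintro rfl
    have := Real.exp_pos (4 * A ^ 2)
    simp only [Nat.cast_zero] at hP
    linarith
  have : NeZero P := ⟨hP0⟩
  have h1 := hF A (le_trans (le_max_left _ _) hA) P hP
  rw [Hf_eq]
  exact ⟨h1.ent_lo, h1.ent_hi⟩

/-- rounding and normalisation losses -/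
theorem ev_theta (c C : ℝ) : ∀ᶠ n : ℕ in atTop, ∀ P : ℕ, ∀ [NeZero P], (n : ℝ) ^ 10 ≤ P →
    Data n P c C → ∀ R : ℕ, n ≤ R → (R : ℝ) ≤ (n : ℝ) ^ (1.01 : ℝ) →
      ∃ θ : ℝ, 1 - 3 * (n : ℝ) ^ (-0.19 : ℝ) ≤ θ ∧
        (R : ℝ) * (2 * H852.AR n * del (H852.AR n) P + del (H852.AR n) P ^ 2) ≤ 1 ∧
        θ ≤ (del (H852.AR n) P * NA (H852.AR n) P / Real.sqrt (2 * Real.pi)) ^ R *
          Real.exp (-((R : ℝ) * (2 * H852.AR n * del (H852.AR n) P + del (H852.AR n) P ^ 2)) / 2) := by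
  filter_upwards [eventually_ge_atTop 3, ev_AR (show (0 : ℝ) < 0.01 by norm_num),
    ev_le 2 (show (0 : ℝ) < 0.19 by norm_num)] with n hn hA h2 P _ hP hD R hnR hR
  have ha3 : (3 : ℝ) ≤ n := by exact_mod_cast hn
  set a : ℝ := (n : ℝ) with ha
  have ha0 : 0 < a := by linarith
  have ha1 : 1 ≤ a := by linarith
  have hA0 : 0 < H852.AR n := hD.A_pos
  have hP0 : (0 : ℝ) < P := lt_of_lt_of_le (by positivity) hP
  have hδ : del (H852.AR n) P ≤ a ^ (-9 : ℝ) := by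
    unfold del
    rw [div_le_iff₀ hP0]
    calc H852.AR n ≤ a ^ (0.01 : ℝ) := hA
      _ ≤ a ^ (1 : ℝ) := Real.rpow_le_rpow_of_exponent_le ha1 (by norm_num)
      _ = a ^ (-9 : ℝ) * a ^ (10 : ℝ) := by rw [← Real.rpow_add ha0]; norm_num
      _ = a ^ (-9 : ℝ) * a ^ 10 := by
          congr 1
          rw [← Real.rpow_natCast]; norm_num
      _ ≤ a ^ (-9 : ℝ) * P := mul_le_mul_of_nonneg_left hP (by positivity)
  have hδ0 : 0 ≤ del (H852.AR n) P := by unfold del; positivity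
  have hA1 : H852.AR n ≤ a := by
    calc H852.AR n ≤ a ^ (0.01 : ℝ) := hA
      _ ≤ a ^ (1 : ℝ) := Real.rpow_le_rpow_of_exponent_le ha1 (by norm_num)
      _ = a := Real.rpow_one a
  have hneg9 : a ^ (-9 : ℝ) ≤ 1 := Real.rpow_le_one_of_one_le_of_nonpos ha1 (by norm_num)
  have hin : 2 * H852.AR n * del (H852.AR n) P + del (H852.AR n) P ^ 2 ≤ 3 * a ^ (-8 : ℝ) := by
    have e1 : a * a ^ (-9 : ℝ) = a ^ (-8 : ℝ) := by
      rw [← Real.rpow_one_add' ha0.le (by norm_num)]; norm_num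
    have e2 : H852.AR n * del (H852.AR n) P ≤ a * a ^ (-9 : ℝ) := by gcongr
    have e3 : del (H852.AR n) P ^ 2 ≤ 1 * a ^ (-9 : ℝ) := by
      rw [sq]
      exact mul_le_mul (hδ.trans hneg9) hδ hδ0 (by norm_num)
    have e4 : a ^ (-9 : ℝ) ≤ a ^ (-8 : ℝ) := Real.rpow_le_rpow_of_exponent_le ha1 (by norm_num)
    rw [e1] at e2
    linarith
  have hR0 : (0 : ℝ) ≤ R := Nat.cast_nonneg R
  have hz : (R : ℝ) * (2 * H852.AR n * del (H852.AR n) P + del (H852.AR n) P ^ 2) ≤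
      a ^ (-0.19 : ℝ) := by
    calc (R : ℝ) * (2 * H852.AR n * del (H852.AR n) P + del (H852.AR n) P ^ 2)
        ≤ a ^ (1.01 : ℝ) * (3 * a ^ (-8 : ℝ)) := by gcongr
      _ ≤ a ^ (1.01 : ℝ) * (a ^ (1 : ℝ) * a ^ (-8 : ℝ)) := by
          rw [Real.rpow_one]
          gcongr
      _ = a ^ (-5.99 : ℝ) := by
          rw [← Real.rpow_add ha0, ← Real.rpow_add ha0]; norm_num
      _ ≤ a ^ (-0.19 : ℝ) := Real.rpow_le_rpow_of_exponent_le ha1 (by norm_num)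
  have hv : a ^ (-0.19 : ℝ) ≤ 1 := Real.rpow_le_one_of_one_le_of_nonpos ha1 (by norm_num)
  have hn1 : 1 ≤ n := by omega
  have hε1 : (2 : ℝ) * Real.exp (-H852.AR n ^ 2 / 2) ≤ 1 := by
    rw [exp_AR2 hn1]
    have e1 : a ^ (-1.2 : ℝ) ≤ a ^ (-0.19 : ℝ) :=
      Real.rpow_le_rpow_of_exponent_le ha1 (by norm_num)
    have e2 : a ^ (-0.19 : ℝ) * 2 ≤ a ^ (-0.19 : ℝ) * a ^ (0.19 : ℝ) :=
      mul_le_mul_of_nonneg_left h2 (by positivity)
    have e3 : a ^ (-0.19 : ℝ) * a ^ (0.19 : ℝ) = 1 := by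
      rw [← Real.rpow_add ha0]; norm_num
    linarith
  have key := theta_ok (A := H852.AR n) (ε₁ := 2 * Real.exp (-H852.AR n ^ 2 / 2)) (p := P)
    (R := R) hA0.le (by positivity) hε1 hD.facts.norm_lo
  refine ⟨_, ?_, hz.trans hv, key⟩
  have e5 : (R : ℝ) * (2 * Real.exp (-H852.AR n ^ 2 / 2)) ≤ 2 * a ^ (-0.19 : ℝ) := by
    rw [exp_AR2 hn1]
    calc (R : ℝ) * (2 * a ^ (-1.2 : ℝ)) ≤ a ^ (1.01 : ℝ) * (2 * a ^ (-1.2 : ℝ)) := by gcongr
      _ = 2 * (a ^ (1.01 : ℝ) * a ^ (-1.2 : ℝ)) := by ring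
      _ = 2 * a ^ (-0.19 : ℝ) := by rw [← Real.rpow_add ha0]; norm_num
  have e6 : 0 < a ^ (-0.19 : ℝ) := by positivity
  linarith

/-- numerical losses of one block -/
theorem num_loss {ε μ θ : ℝ} (hε0 : 0 < ε) (hεs : ε ≤ 1 / 100) (hθ : 1 - ε ≤ θ)
    (hμ1 : 1 / 2 ≤ μ) (hμ2 : μ ≤ 1) : μ - 5 * ε ≤ θ * ((1 - ε) * (μ - 2 * ε)) := by
  have hθ0 : 0 ≤ θ := by linarith
  have e2 : μ - 3 * ε ≤ (1 - ε) * (μ - 2 * ε) := by nlinarith
  have e3 : 0 ≤ μ - 3 * ε := by linarith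
  have e4 : μ - 5 * ε ≤ (1 - ε) * (μ - 3 * ε) := by nlinarith
  exact e4.trans (mul_le_mul hθ e2 e3 hθ0)

/-- value bounds of one block -/
theorem val_bounds {A lam v : ℝ} {P R r : ℕ} [NeZero P] (hP : 0 < (P : ℝ))
    (hr1 : Real.exp (R * h1 A P + lam) ≤ (P : ℝ) ^ r)
    (hr2 : (P : ℝ) ^ r ≤ P * Real.exp (R * h1 A P + lam)) :
    R * HH A P - lam - Real.log P ≤
        (v + (R : ℝ) * Real.log (Real.sqrt (2 * Real.pi * Real.exp 1) / del A P) -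
          r * Real.log P) - v ∧
      (v + (R : ℝ) * Real.log (Real.sqrt (2 * Real.pi * Real.exp 1) / del A P) -
          r * Real.log P) - v ≤ R * HH A P - lam := by
  have e3 : HH A P = Real.log (Real.sqrt (2 * π * Real.exp 1) / del A P) - h1 A P := rfl
  constructor
  · have e1 := Real.log_le_log (by positivity) hr2
    rw [Real.log_pow, Real.log_mul hP.ne' (Real.exp_pos _).ne', Real.log_exp] at e1
    rw [e3]
    linarith
  · have e1 := Real.log_le_log (Real.exp_pos _) hr1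
    rw [Real.log_pow, Real.log_exp] at e1
    rw [e3]
    linarith

/-- everything about one block, common to both cases -/
theorem block_common {c C : ℝ} (hc : 0 < c) : ∀ᶠ n : ℕ in atTop, ∀ P : ℕ, P.Prime →
    (n : ℝ) ^ 10 ≤ P → (P : ℝ) ≤ 2 * n ^ 10 → ∀ [NeZero P], Data n P c C →
    ∀ R : ℕ, n ≤ R → (R : ℝ) ≤ (n : ℝ) ^ (1.01 : ℝ) →
    ∀ r : ℕ, r ≤ R →
      Real.exp (R * h1 (H852.AR n) P + 3 * (R : ℝ) ^ (0.53 : ℝ)) ≤ (P : ℝ) ^ r →
      (P : ℝ) ^ r ≤ P * Real.exp (R * h1 (H852.AR n) P + 3 * (R : ℝ) ^ (0.53 : ℝ)) →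
    ∀ (bB : Bool) (w lo hi : ℝ) (Dn : ℕ) (μ : ℝ), 1 / 2 ≤ μ → μ ≤ 1 →
      μ ≤ ∑ u : Fin (R - r) ⊕ Fin r → ZMod P,
        gt (H852.AR n) w (Sum.elim (fun _ => false) (fun _ => bB)) (R * h1 (H852.AR n) P)
          ((R : ℝ) ^ (0.53 : ℝ)) lo hi Dn u →
    ∀ (t b : ℕ) (D : ℝ) (d : ℕ) (c' slo shi v : ℝ), HasUp t b D d c' slo shi v → 0 ≤ c' →
      (b : ℝ) ≤ R / 1000 → 10 * (R : ℝ) ^ (0.53 : ℝ) ≤ d →
      ∃ v' : ℝ, HasUp (t + R) (if bB then r else 0) (max D P) Dn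
          (c' * (μ - 5 * (n : ℝ) ^ (-0.05 : ℝ))) (slo + (R - lo + 1)) (shi + (hi - R + 1)) v' ∧
        R * Hf (G.AR n) P - 3 * (R : ℝ) ^ (0.53 : ℝ) - Real.log P ≤ v' - v ∧
          v' - v ≤ R * Hf (G.AR n) P - 3 * (R : ℝ) ^ (0.53 : ℝ) := by
  obtain ⟨R1, hR1⟩ := exists_big
  filter_upwards [ev_theta c C, eventually_ge_atTop R1, eventually_ge_atTop 3,
    ev_le 100 (show (0 : ℝ) < 0.05 by norm_num), ev_le 3 (show (0 : ℝ) < 0.14 by norm_num)]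
    with n hθ hnR1 hn3 h100 h3 P hPp hP1 hP2 _ hD R hnR hR r hrR hr1 hr2 bB w lo hi Dn μ hμ1 hμ2
      hμ t b D d c' slo shi v hU hc' hb hd
  have : Fact P.Prime := ⟨hPp⟩
  have hbig := hR1 R (hnR1.trans hnR)
  set y : ℝ := (R : ℝ) ^ (0.01 : ℝ) with hy
  have ha3 : (3 : ℝ) ≤ n := by exact_mod_cast hn3
  set a : ℝ := (n : ℝ) with ha
  have ha0 : 0 < a := by linarith
  have ha1 : 1 ≤ a := by linarith
  have haR : a ≤ R := by rw [ha]; exact_mod_cast hnR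
  have hA0 : 0 < H852.AR n := hD.A_pos
  have hP0 : (0 : ℝ) < P := by exact_mod_cast hPp.pos
  have hδ : 0 < del (H852.AR n) P := by unfold del; positivity
  set ε : ℝ := a ^ (-0.05 : ℝ) with hε
  have hε0 : 0 < ε := by positivity
  have hεs : ε ≤ 1 / 100 := by
    have e1 : ε * 100 ≤ ε * a ^ (0.05 : ℝ) := mul_le_mul_of_nonneg_left h100 hε0.le
    have e2 : ε * a ^ (0.05 : ℝ) = 1 := by rw [hε, ← Real.rpow_add ha0]; norm_num
    linarith
  have hε1 : (y ^ 5)⁻¹ ≤ ε := by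
    have e1 : y ^ 5 = (R : ℝ) ^ (0.05 : ℝ) := by
      rw [hy, ← Real.rpow_natCast, ← Real.rpow_mul hbig.R_pos.le]; norm_num
    rw [e1, hε, Real.rpow_neg ha0.le]
    exact inv_anti₀ (by positivity) (Real.rpow_le_rpow ha0.le haR (by norm_num))
  obtain ⟨θ, hθ1, hround, hθ2⟩ := hθ P hP1 hD R hnR hR
  have hHH0 : 0 ≤ HH (H852.AR n) P := le_trans (by positivity) hD.facts.ent_lo
  have hh1 : h1 (H852.AR n) P =
      Real.log (Real.sqrt (2 * π * Real.exp 1) / del (H852.AR n) P) - HH (H852.AR n) P := by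
    unfold HH; ring
  have hh : (R : ℝ) * h1 (H852.AR n) P ≤
      R * Real.log (Real.sqrt (2 * π * Real.exp 1) / del (H852.AR n) P) := by
    rw [hh1]
    exact mul_le_mul_of_nonneg_left (by linarith) hbig.R_pos.le
  have hsr : (R - r) + r = R := Nat.sub_add_cancel hrR
  have hP3 : (P : ℝ) ≤ 2 * (R : ℝ) ^ 10 := by
    refine hP2.trans ?_
    have := pow_le_pow_left₀ ha0.le haR 10
    linarith
  have hr1' := hr1
  have hr2' := hr2
  rw [hbig.lam_eq] at hr1' hr2' hμ hd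
  have hnum := blockNum hbig hPp.one_le hP3 hsr hb hδ hh hr1' hr2' hε1 (by linarith)
  have hdd : ⌈6 * y ^ 53 / Real.log 2⌉₊ + ⌊y ^ 53 / 2⌋₊ ≤ d := by
    have := hbig.n5
    exact_mod_cast this.trans hd
  have hv19 : a ^ (-0.19 : ℝ) * 3 ≤ ε := by
    have e1 : a ^ (-0.19 : ℝ) * 3 ≤ a ^ (-0.19 : ℝ) * a ^ (0.14 : ℝ) :=
      mul_le_mul_of_nonneg_left h3 (by positivity)
    have e2 : a ^ (-0.19 : ℝ) * a ^ (0.14 : ℝ) = ε := by
      rw [hε, ← Real.rpow_add ha0]; norm_num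
    linarith
  have hθ0 : 0 ≤ θ := by linarith
  have hblock := hU.block (p := P) (A := H852.AR n) (w := w) hA0 (R - r) r bB
    (R * h1 (H852.AR n) P) (y ^ 53) lo hi Dn hD.facts.energy hnum hdd (μ := μ) (by linarith) hμ θ
    hθ0 (by rw [hsr]; exact hround) (by rw [hsr]; exact hθ2)
  rw [hsr] at hblock
  have hloss := num_loss hε0 hεs (show 1 - ε ≤ θ by linarith) hμ1 hμ2
  have hval := val_bounds (v := v) hP0 hr1 hr2
  have e2 : Hf (G.AR n) P = HH (H852.AR n) P := Hf_eq _ _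
  rw [e2]
  exact ⟨_, hblock.mono le_rfl le_rfl le_rfl (mul_le_mul_of_nonneg_left hloss hc') le_rfl le_rfl,
    hval⟩

/-- BS, intermediate block -/
theorem bsInt (hG2 : S_G2F) : StmtBSint Hf := by
  obtain ⟨c, C, hc, hC, R0, h3⟩ := g3 hG2
  obtain ⟨R2, hR2⟩ := Filter.eventually_atTop.1 ((block_common (C := C) hc).and
    ((ev_le 6 (show (0 : ℝ) < 0.01 by norm_num)).and
      ((ev_le 2 (show (0 : ℝ) < 0.05 by norm_num)).and (eventually_ge_atTop 3))))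
  refine ⟨max R0 R2, ?_⟩
  intro Ra hRa P hPp hP1 hP2 t b D d c' slo shi v hU hc' hb hd
  obtain ⟨hblk, h6, h2, hn3⟩ := hR2 Ra (le_trans (le_max_right _ _) hRa)
  have : NeZero P := ⟨hPp.ne_zero⟩
  obtain ⟨hD, hint, -, hr⟩ := h3 Ra (le_trans (le_max_left _ _) hRa) P (by exact_mod_cast hP1)
  obtain ⟨r, hrR, hr2, hr3, hr4⟩ := hr Ra le_rfl
  have ha3 : (3 : ℝ) ≤ Ra := by exact_mod_cast hn3
  set a : ℝ := (Ra : ℝ) with ha
  have ha0 : 0 < a := by linarith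
  have ha1 : 1 ≤ a := by linarith
  have hε0 : 0 < a ^ (-0.05 : ℝ) := by positivity
  have hεs : a ^ (-0.05 : ℝ) ≤ 1 / 2 := by
    have e1 : a ^ (-0.05 : ℝ) * 2 ≤ a ^ (-0.05 : ℝ) * a ^ (0.05 : ℝ) :=
      mul_le_mul_of_nonneg_left h2 hε0.le
    have e2 : a ^ (-0.05 : ℝ) * a ^ (0.05 : ℝ) = 1 := by rw [← Real.rpow_add ha0]; norm_num
    linarith
  have hR101 : a ≤ a ^ (1.01 : ℝ) := by
    calc a = a ^ (1 : ℝ) := (Real.rpow_one a).symm
      _ ≤ _ := Real.rpow_le_rpow_of_exponent_le ha1 (by norm_num)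
  have hμ := hint (Fin (Ra - r) ⊕ Fin r)
    (by rw [Fintype.card_sum, Fintype.card_fin, Fintype.card_fin]; omega)
    (Sum.elim (fun _ => false) (fun _ => true)) (by
      refine hr2.trans ?_
      have e1 : (Finset.univ.map (⟨Sum.inr, Sum.inr_injective⟩ : Fin r ↪ Fin (Ra - r) ⊕ Fin r)) ⊆
          Finset.univ.filter fun j : Fin (Ra - r) ⊕ Fin r =>
            (Sum.elim (fun _ => false) (fun _ => true) j : Bool) = true := by
        intro j hj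
        obtain ⟨i, -, rfl⟩ := Finset.mem_map.1 hj
        simp
      have e2 := Finset.card_le_card e1
      rw [Finset.card_map, Finset.card_univ, Fintype.card_fin] at e2
      exact_mod_cast e2)
  obtain ⟨v', hv1, hv2, hv3⟩ := hblk P hPp hP1 hP2 hD Ra le_rfl hR101 r hrR hr3 hr4 true
    (wR Ra) (a - a ^ (0.53 : ℝ)) (a + a ^ (0.53 : ℝ)) ⌈a ^ (0.59 : ℝ)⌉₊ (1 - a ^ (-0.05 : ℝ))
    (by linarith) (by linarith) hμ t b D d c' slo shi v hU hc' hb hd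
  refine ⟨v', hv1.mono (by simpa using hrR) le_rfl le_rfl ?_ (by linarith) (by linarith),
    hv2, hv3⟩
  apply mul_le_mul_of_nonneg_left _ hc'
  have e1 : a ^ (-0.04 : ℝ) = a ^ (-0.05 : ℝ) * a ^ (0.01 : ℝ) := by
    rw [← Real.rpow_add ha0]; norm_num
  have e2 : a ^ (-0.05 : ℝ) * 6 ≤ a ^ (-0.05 : ℝ) * a ^ (0.01 : ℝ) :=
    mul_le_mul_of_nonneg_left h6 hε0.le
  linarith

/-- BS, last block -/
theorem bsLast (hG2 : S_G2F) : StmtBSlast Hf := by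
  obtain ⟨c, C, hc, hC, R0, h3⟩ := g3 hG2
  obtain ⟨R2, hR2⟩ := Filter.eventually_atTop.1 ((block_common (C := C) hc).and
    ((ev_le 20 (show (0 : ℝ) < 0.05 by norm_num)).and (eventually_ge_atTop 3)))
  refine ⟨max R0 R2, 21, ?_⟩
  intro Ra hRa P hPp hP1 hP2 R hRaR hR t b D d c' slo shi v hU hc' hb hd
  obtain ⟨hblk, h20, hn3⟩ := hR2 Ra (le_trans (le_max_right _ _) hRa)
  have : NeZero P := ⟨hPp.ne_zero⟩
  obtain ⟨hD, -, hlast, hr⟩ := h3 Ra (le_trans (le_max_left _ _) hRa) P (by exact_mod_cast hP1)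
  obtain ⟨r, hrR, hr2, hr3, hr4⟩ := hr R hRaR
  have ha3 : (3 : ℝ) ≤ Ra := by exact_mod_cast hn3
  set a : ℝ := (Ra : ℝ) with ha
  have ha0 : 0 < a := by linarith
  have hε0 : 0 < a ^ (-0.05 : ℝ) := by positivity
  have hεs : a ^ (-0.05 : ℝ) ≤ 1 / 20 := by
    have e1 : a ^ (-0.05 : ℝ) * 20 ≤ a ^ (-0.05 : ℝ) * a ^ (0.05 : ℝ) :=
      mul_le_mul_of_nonneg_left h20 hε0.le
    have e2 : a ^ (-0.05 : ℝ) * a ^ (0.05 : ℝ) = 1 := by rw [← Real.rpow_add ha0]; norm_num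
    linarith
  have haR : a ≤ R := by rw [ha]; exact_mod_cast hRaR
  have hsq : 1 ≤ Real.sqrt R := by
    rw [show (1 : ℝ) = Real.sqrt 1 by simp]
    exact Real.sqrt_le_sqrt (by linarith)
  have hμ := hlast R hRaR hR (Fin (R - r) ⊕ Fin r)
    (by rw [Fintype.card_sum, Fintype.card_fin, Fintype.card_fin]; omega)
  have hfun : (fun _ => false : Fin (R - r) ⊕ Fin r → Bool) =
      Sum.elim (fun _ => false) (fun _ => false) := by
    funext j; cases j <;> rfl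
  rw [hfun] at hμ
  obtain ⟨v', hv1, hv2, hv3⟩ := hblk P hPp hP1 hP2 hD R hRaR hR r hrR hr3 hr4 false
    0 (R - 20 * Real.sqrt R) (R + 20 * Real.sqrt R) 0 (3 / 4)
    (by norm_num) (by norm_num) hμ t b D d c' slo shi v hU hc' hb hd
  refine ⟨v', hv1.mono (by simp) le_rfl le_rfl ?_ (by linarith) (by linarith), hv2, hv3⟩
  rw [div_eq_mul_one_div]
  apply mul_le_mul_of_nonneg_left _ hc'
  linarith

end Vale.Agent.P230.BS
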