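import Mathlib

/-!
# P230, block step: numerics (eventually-inequalities)

Everything is expressed through `y = R ^ 0.01`: `R = y ^ 100`, `R ^ 0.53 = y ^ 53`, `log R ≤ y`.
-/

set_option autoImplicit false

namespace Vale.Agent.P230.BS

open Real

/-- the basic numerical facts about a large rank -/
structure Big (R : ℕ) (y : ℝ) : Prop where
  hy : 1000 ≤ y
  hlog : Real.log R ≤ y
  hR : (R : ℝ) = y ^ 100

theorem Big.R_pos {R : ℕ} {y : ℝ} (h : Big R y) : (0 : ℝ) < R := by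
  rw [h.hR]; have := h.hy; positivity

theorem Big.y_pos {R : ℕ} {y : ℝ} (h : Big R y) : 0 < y := by
  have := h.hy; linarith

theorem Big.y_eq {R : ℕ} {y : ℝ} (h : Big R y) : y = (R : ℝ) ^ (0.01 : ℝ) := by
  rw [h.hR, ← Real.rpow_natCast, ← Real.rpow_mul h.y_pos.le]
  norm_num

theorem Big.lam_eq {R : ℕ} {y : ℝ} (h : Big R y) : (R : ℝ) ^ (0.53 : ℝ) = y ^ 53 := by
  rw [h.hR, ← Real.rpow_natCast, ← Real.rpow_natCast, ← Real.rpow_mul h.y_pos.le]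
  norm_num

theorem exists_big : ∃ R0 : ℕ, ∀ R : ℕ, R0 ≤ R → Big R ((R : ℝ) ^ (0.01 : ℝ)) := by
  have h1 : ∀ᶠ x : ℝ in Filter.atTop, ‖Real.log x‖ ≤ 1 * ‖x ^ (0.01 : ℝ)‖ :=
    (isLittleO_log_rpow_atTop (by norm_num : (0 : ℝ) < 0.01)).bound one_pos
  have h2 : ∀ᶠ x : ℝ in Filter.atTop, 1000 ≤ x ^ (0.01 : ℝ) :=
    (tendsto_rpow_atTop (by norm_num : (0 : ℝ) < 0.01)).eventually_ge_atTop 1000
  have h3 : ∀ᶠ x : ℝ in Filter.atTop, (1 : ℝ) ≤ x := Filter.eventually_ge_atTop 1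
  have h4 := tendsto_natCast_atTop_atTop (R := ℝ) |>.eventually (h1.and (h2.and h3))
  obtain ⟨R0, hR0⟩ := Filter.eventually_atTop.1 h4
  refine ⟨R0, fun R hR => ?_⟩
  obtain ⟨h5, h6, h7⟩ := hR0 R hR
  refine ⟨h6, ?_, ?_⟩
  · rw [Real.norm_of_nonneg (Real.log_nonneg h7), one_mul,
      Real.norm_of_nonneg (Real.rpow_nonneg (by linarith) _)] at h5
    exact h5
  · rw [← Real.rpow_natCast, ← Real.rpow_mul (by linarith)]
    norm_num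

/-- comparison of powers -/
theorem pw_le {y : ℝ} (hy : 1000 ≤ y) (a k : ℕ) : 1000 ^ k * y ^ a ≤ y ^ (a + k) := by
  rw [pow_add, mul_comm]
  exact mul_le_mul_of_nonneg_left (pow_le_pow_left₀ (by norm_num) hy k) (by positivity)

theorem one_le_pw {y : ℝ} (hy : 1000 ≤ y) (a : ℕ) : 1 ≤ y ^ a := one_le_pow₀ (by linarith)

variable {R : ℕ} {y : ℝ}

/-- `11 R^11 ≤ exp λ` -/
theorem Big.exp_lam (h : Big R y) : 11 * (R : ℝ) ^ 11 ≤ Real.exp (y ^ 53) := by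
  have hR := h.R_pos
  rw [← Real.exp_log (by positivity : (0 : ℝ) < 11 * (R : ℝ) ^ 11)]
  apply Real.exp_le_exp.2
  rw [Real.log_mul (by norm_num) (by positivity), Real.log_pow]
  have h1 : Real.log 11 ≤ 10 := by
    have := Real.log_le_sub_one_of_pos (by norm_num : (0 : ℝ) < 11)
    linarith
  have h2 := h.hlog
  have h3 := pw_le h.hy 1 52
  have h4 := h.hy
  have h5 : (1000 : ℝ) ≤ 1000 ^ 52 := by norm_num
  have h6 : 1000 * y ≤ 1000 ^ 52 * y ^ 1 := by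
    rw [pow_one]; exact mul_le_mul_of_nonneg_right h5 h.y_pos.le
  have h7 : y ^ (1 + 52) = y ^ 53 := by norm_num
  rw [h7] at h3
  push_cast
  nlinarith

/-- (h1) of the block lemma -/
theorem Big.n2 (h : Big R y) : 7 * y ^ 53 + 3 + 10 * y + 1 ≤ 0.001 * (R : ℝ) := by
  rw [h.hR]
  have h3 := pw_le h.hy 53 47
  have h4 := one_le_pw h.hy 53
  have h5 := pw_le h.hy 1 99
  have h6 := h.hy
  have h8 : (20000 : ℝ) * y ^ 53 ≤ 1000 ^ 47 * y ^ 53 :=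
    mul_le_mul_of_nonneg_right (by norm_num) (by positivity)
  have h9 : (30000 : ℝ) * y ≤ 1000 ^ 99 * y ^ 1 := by
    rw [pow_one]; exact mul_le_mul_of_nonneg_right (by norm_num) h.y_pos.le
  have h10 : y ^ (53 + 47) = y ^ 100 := by norm_num
  have h11 : y ^ (1 + 99) = y ^ 100 := by norm_num
  rw [h10] at h3; rw [h11] at h5
  nlinarith

/-- (h2) of the block lemma -/
theorem Big.n4 (h : Big R y) :
    1 + 0.003 * (R : ℝ) + R * (1 + 10 * y) + 0.65 * y ^ 53 + 1 ≤ 0.1625 * (y ^ 53) ^ 2 := by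
  rw [h.hR]
  have h6 := h.hy
  have h0 := one_le_pw h.hy 100
  have h1 := pw_le h.hy 101 5
  have h2 := pw_le h.hy 53 48
  have h3 : y ^ 100 ≤ y ^ 101 := pow_le_pow_right₀ (by linarith) (by norm_num)
  have h4 : (y ^ 53) ^ 2 = y ^ 106 := by rw [← pow_mul]
  rw [h4]
  have h5 : y ^ (101 + 5) = y ^ 106 := by norm_num
  have h7 : y ^ (53 + 48) = y ^ 101 := by norm_num
  rw [h5] at h1; rw [h7] at h2
  have h8 : y ^ 53 ≤ y ^ 101 := pow_le_pow_right₀ (by linarith) (by norm_num)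
  have h9 : (1000 : ℝ) * y ^ 101 ≤ 1000 ^ 5 * y ^ 101 :=
    mul_le_mul_of_nonneg_right (by norm_num) (by positivity)
  have h10 : y ^ 100 * (1 + 10 * y) = y ^ 100 + 10 * y ^ 101 := by ring
  rw [h10]
  nlinarith

/-- the choice of the two cube dimensions -/
theorem Big.n5 (h : Big R y) :
    ((⌈6 * y ^ 53 / Real.log 2⌉₊ + ⌊y ^ 53 / 2⌋₊ : ℕ) : ℝ) ≤ 10 * y ^ 53 := by
  have hl := Real.log_two_gt_d9
  have hpos : 0 ≤ 6 * y ^ 53 / Real.log 2 := by have := h.y_pos; positivity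
  have h1 := Nat.ceil_lt_add_one hpos
  have h2 : ((⌊y ^ 53 / 2⌋₊ : ℕ) : ℝ) ≤ y ^ 53 / 2 :=
    Nat.floor_le (by have := h.y_pos; positivity)
  have h3 : 6 * y ^ 53 / Real.log 2 ≤ 9 * y ^ 53 := by
    rw [div_le_iff₀ (by linarith)]
    have := one_le_pw h.hy 53
    nlinarith
  have h4 := pw_le h.hy 0 53
  have h5 : (1000 : ℝ) ≤ 1000 ^ 53 * y ^ 0 := by norm_num
  have h6 : y ^ (0 + 53) = y ^ 53 := by norm_num
  rw [h6] at h4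
  push_cast
  linarith

theorem Big.two_pow_d1 (_h : Big R y) :
    Real.exp (6 * y ^ 53) ≤ 2 ^ ⌈6 * y ^ 53 / Real.log 2⌉₊ := by
  have hl := Real.log_two_gt_d9
  have h1 := Nat.le_ceil (6 * y ^ 53 / Real.log 2)
  rw [div_le_iff₀ (by linarith)] at h1
  calc Real.exp (6 * y ^ 53) ≤ Real.exp (⌈6 * y ^ 53 / Real.log 2⌉₊ * Real.log 2) :=
        Real.exp_le_exp.2 h1
    _ = 2 ^ ⌈6 * y ^ 53 / Real.log 2⌉₊ := by
        rw [← Real.log_pow, Real.exp_log (by positivity)]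

/-- `(2^{d2} e^{-λ})^ρ` is tiny -/
theorem Big.d2_rho (h : Big R y) :
    ((2 : ℝ) ^ ⌊y ^ 53 / 2⌋₊ * Real.exp (-y ^ 53)) ^ ⌊y ^ 53 / 4⌋₊ ≤
      Real.exp (-(0.1625 * (y ^ 53) ^ 2) + 0.65 * y ^ 53) := by
  have hy0 := h.y_pos
  have hl := Real.log_two_lt_d9
  have h2 : ((⌊y ^ 53 / 2⌋₊ : ℕ) : ℝ) ≤ y ^ 53 / 2 := Nat.floor_le (by positivity)
  have h3 : y ^ 53 / 4 - 1 ≤ ((⌊y ^ 53 / 4⌋₊ : ℕ) : ℝ) := by
    have := Nat.lt_floor_add_one (y ^ 53 / 4)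
    linarith
  have h4 : (2 : ℝ) ^ ⌊y ^ 53 / 2⌋₊ ≤ Real.exp (0.35 * y ^ 53) := by
    have h5 : (2 : ℝ) ^ ⌊y ^ 53 / 2⌋₊ = Real.exp (⌊y ^ 53 / 2⌋₊ * Real.log 2) := by
      rw [← Real.log_pow, Real.exp_log (by positivity)]
    rw [h5]
    apply Real.exp_le_exp.2
    have : ((⌊y ^ 53 / 2⌋₊ : ℕ) : ℝ) * Real.log 2 ≤ y ^ 53 / 2 * 0.7 :=
      mul_le_mul h2 (by linarith) (Real.log_nonneg (by norm_num)) (by positivity)
    linarith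
  have h5 : (2 : ℝ) ^ ⌊y ^ 53 / 2⌋₊ * Real.exp (-y ^ 53) ≤ Real.exp (-0.65 * y ^ 53) := by
    calc (2 : ℝ) ^ ⌊y ^ 53 / 2⌋₊ * Real.exp (-y ^ 53)
        ≤ Real.exp (0.35 * y ^ 53) * Real.exp (-y ^ 53) :=
          mul_le_mul_of_nonneg_right h4 (Real.exp_pos _).le
      _ = Real.exp (-0.65 * y ^ 53) := by rw [← Real.exp_add]; congr 1; ring
  calc ((2 : ℝ) ^ ⌊y ^ 53 / 2⌋₊ * Real.exp (-y ^ 53)) ^ ⌊y ^ 53 / 4⌋₊
      ≤ (Real.exp (-0.65 * y ^ 53)) ^ ⌊y ^ 53 / 4⌋₊ :=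
        pow_le_pow_left₀ (by positivity) h5 _
    _ = Real.exp (⌊y ^ 53 / 4⌋₊ * (-0.65 * y ^ 53)) := by rw [← Real.exp_nat_mul]
    _ ≤ _ := by
        apply Real.exp_le_exp.2
        have := mul_le_mul_of_nonneg_right h3 (by positivity : (0 : ℝ) ≤ 0.65 * y ^ 53)
        nlinarith

/-- (hρ) of the block lemma -/
theorem Big.hrho (h : Big R y) {ε : ℝ} (hε : (y ^ 5)⁻¹ ≤ ε) :
    (2 : ℝ) ^ ⌊y ^ 53 / 4⌋₊ ≤ 2 * (ε * 2 ^ ⌊y ^ 53 / 2⌋₊) := by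
  have hy0 := h.y_pos
  have h2 : ((⌊y ^ 53 / 4⌋₊ : ℕ) : ℝ) ≤ y ^ 53 / 4 := Nat.floor_le (by positivity)
  have h3 : y ^ 53 / 2 - 1 ≤ ((⌊y ^ 53 / 2⌋₊ : ℕ) : ℝ) := by
    have := Nat.lt_floor_add_one (y ^ 53 / 2)
    linarith
  -- `⌊λ/4⌋ + k ≤ ⌊λ/2⌋ + 1` with `2^k ≥ y^5`, `k = 50 ⌈y⌉`
  have hp1 := pw_le h.hy 1 52
  have h7 : y ^ (1 + 52) = y ^ 53 := by norm_num
  rw [h7, pow_one] at hp1
  have hp2 : (10000 : ℝ) * y ≤ 1000 ^ 52 * y := mul_le_mul_of_nonneg_right (by norm_num) hy0.le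
  have hk : (⌊y ^ 53 / 4⌋₊ + ⌈y⌉₊ : ℕ) ≤ ⌊y ^ 53 / 2⌋₊ + 1 := by
    have hc := Nat.ceil_lt_add_one hy0.le
    have : ((⌊y ^ 53 / 4⌋₊ + ⌈y⌉₊ : ℕ) : ℝ) ≤ ((⌊y ^ 53 / 2⌋₊ + 1 : ℕ) : ℝ) := by
      push_cast
      have := h.hy
      linarith
    exact_mod_cast this
  have hlogy : 100 * Real.log y ≤ y := by
    have h8 := h.hlog
    rw [h.hR, Real.log_pow] at h8
    exact_mod_cast h8
  have h9 : y ^ 5 ≤ 2 ^ ⌈y⌉₊ := by
    have h10 : Real.log (y ^ 5) ≤ ⌈y⌉₊ * Real.log 2 := by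
      rw [Real.log_pow]
      have h11 := Nat.le_ceil y
      have h12 := Real.log_two_gt_d9
      push_cast
      nlinarith
    rw [← Real.log_pow] at h10
    exact (Real.log_le_log_iff (by positivity) (by positivity)).1 h10
  have h13 : (1 : ℝ) ≤ ε * 2 ^ ⌈y⌉₊ := by
    calc (1 : ℝ) = (y ^ 5)⁻¹ * y ^ 5 := by field_simp
      _ ≤ ε * 2 ^ ⌈y⌉₊ := mul_le_mul hε h9 (by positivity) (le_trans (by positivity) hε)
  have hε0 : 0 ≤ ε := le_trans (by positivity) hε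
  calc (2 : ℝ) ^ ⌊y ^ 53 / 4⌋₊ ≤ 2 ^ ⌊y ^ 53 / 4⌋₊ * (ε * 2 ^ ⌈y⌉₊) :=
        le_mul_of_one_le_right (by positivity) h13
    _ = ε * 2 ^ (⌊y ^ 53 / 4⌋₊ + ⌈y⌉₊) := by rw [pow_add]; ring
    _ ≤ ε * 2 ^ (⌊y ^ 53 / 2⌋₊ + 1) :=
        mul_le_mul_of_nonneg_left (pow_le_pow_right₀ (by norm_num) hk) hε0
    _ = 2 * (ε * 2 ^ ⌊y ^ 53 / 2⌋₊) := by rw [pow_succ]; ring

end Vale.Agent.P230.BS
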